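import Vale.Agent.P004F.St
import Vale.Agent.P014T.Z.Defs
import Vale.Agent.P014U.X4F.St
import Vale.Agent.P014U.X4M.TE.Tate
import Vale.Agent.P014U.X4S.St
import Vale.Agent.P014U.Gn

/-! # P014Y, block F (frame at an odd prime): the data, the towers, the anchor -/

set_option linter.all false

open UpperHalfPlane NumberField Matrix Filter PowerSeries
open scoped Classical NumberTheorySymbols

noncomputable section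

namespace Vale.Agent.P014Y.F

open Vale.Agent.P022 Vale.Agent.P004K Vale.Agent.P014U
open Vale.Agent.P027M.S (Inert)
open Vale.Agent.P022D.W (dec)
open Vale.Agent.P022E.GW (Ov Fb)
open P004Z.EF (Par)
open P004M.TE (Pt ga)
open P004F.Qx (zf Fk dep Ch)

export Vale.Agent.P004F (M2 sd hq Cc Nt)
export Vale.Agent.P014U.X4F (La Rj Rb cj cb mj)

variable [Pp]

/-- the curve, the bad primes, the places -/
structure Crv where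
  N : ℕ
  G : ℍ → ℂ
  a : ℕ → ℤ
  A : ℤ
  B : ℤ
  w : ℕ
  Λ : Submodule ℤ ℂ
  F : ℍ → ℂ
  x : P022.H218.L3.Mer
  y : P022.H218.L3.Mer
  rn : P004N.RN N G a
  par : Par N a A B w Λ F x y
  S : List ℕ
  P : ℕ → Ideal (𝓞 Qb)
  τ : ℕ → GQ
  nd : S.Nodup
  two : 2 ∈ S
  pm : pp ∈ S
  ov : ∀ p ∈ S, Ov p (P p)
  gn : ∀ p ∈ S, p ≠ pp → Gn p (P p) (τ p)
  bad : ∀ l : ℕ, l.Prime → l ∉ S → ¬ l ∣ N ∧ ¬ (l : ℤ) ∣ 4 * A ^ 3 + 27 * B ^ 2 ∧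
    ∀ g, IsFrob l g → (X4M.TE.mt (hq par.disc) g).trace = a l
  aux : ∃ s ∈ S, s ≠ pp ∧ ∀ g ∈ dec (P s), (X4M.TE.mt (hq par.disc) g).map PadicInt.toZMod = 1

namespace Crv

variable (e : Crv)

/-- the representation -/
def r : GQ →* M2 ℤ_[pp] := X4M.TE.mt (hq e.par.disc)

/-- the same with values in `GL₂(ℚ_p)` -/
def rp : X4S.Rp := X4M.TE.rep (hq e.par.disc)

/-- inertia at `P p` fixes the vector `v ≠ 0` -/
def Iv (p : ℕ) (v : Fin 2 → ℤ_[pp]) : Prop := v ≠ 0 ∧ ∀ g, Inert (e.P p) g → e.r g *ᵥ v = v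

/-- the tame strict primes -/
def σ : Finset ℕ := e.S.toFinset.filter fun p => p ≠ pp ∧ ∃ v, e.Iv p v

/-- admissible fields -/
structure Adm (δ' : ℕ) : Prop where
  sq : Squarefree δ'
  m8 : δ' % 8 = 7
  spl : ∀ p ∈ e.S, p ≠ 2 → J(-(δ' : ℤ) | p) = 1

end Crv

/-- `Y` is the Heegner point of conductor `c` -/
def Hg (e : Crv) {K : Type} [Field K] (j : K →+* Qb) (I : Ideal (𝓞 K)) (c : ℕ) (Y : Pt e.A e.B) :
    Prop :=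
  ∀ g σ τ τ', Ex σ g → Hp (JJ j) e.N I c τ → Cj0 σ e.N τ τ' → Un e.Λ (e.F τ') (ga g Y)

/-- the field, the Euler system -/
structure Fld (e : Crv) where
  δ' : ℕ
  β : ℤ
  adm : e.Adm δ'
  dat : P014T.Z.Hg e.N δ' β
  K : Type
  [fK : Field K]
  [nK : NumberField K]
  j : K →+* Qb
  iq : Iq K
  upm : Upm K
  θ : 𝓞 K
  η : 𝓞 K
  I : Ideal (𝓞 K)
  I' : Ideal (𝓞 K)
  Q : ℕ → Ideal (𝓞 K)
  φ : ℕ → GQ
  th : θ ^ 2 = -(δ' : 𝓞 K)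
  im : 0 < (JJ j θ).im
  mem : η ∈ I
  eta : 2 * η = θ - β
  ch : Ch j e.N I I' e.S e.P Q φ
  le : ∀ p ∈ e.S, dec (e.P p) ≤ GK j
  c : GQ
  cc : IsConj c
  Y : ℕ → Pt e.A e.B
  M : ℕ
  M0 : 0 < M
  hg : ∀ c, 0 < c → c.Coprime e.N → Hg e j I c (Y c)
  fx : ∀ c, 0 < c → c.Coprime e.N → ∀ g ∈ Hc j c, ga g (Y c) = Y c
  ine : ∀ c l n t, 0 < c → c.Coprime e.N → l.Prime → ¬ l ∣ c * e.N → Gen j c l n t →
    (Ideal.span {(l : 𝓞 K)}).IsPrime →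
    ∑ i ∈ Finset.range n, ga (t ^ i) (Y (c * l)) = e.a l • Y c ∧
    (¬ l ∣ M → ∀ P : Ideal (𝓞 Qb), P.IsPrime → (l : 𝓞 Qb) ∈ P → ∀ φ : GQ,
      (∀ x : 𝓞 Qb, φ • x - x ^ l ∈ P) → K1 P (Y (c * l) - ga φ (Y c)))
  spl : ∀ c l n t, 0 < c → c.Coprime e.N → l.Prime → ¬ l ∣ c * e.N → Gen j c l n t →
    ∀ (L L' : Ideal (𝓞 K)) g g', L ⊔ L' = ⊤ → L ≠ ⊤ → L' ≠ ⊤ →
    L * L' = Ideal.span {(l : 𝓞 K)} → Ar j c L g → Ar j c L' g' →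
    ∑ i ∈ Finset.range n, ga (t ^ i) (Y (c * l)) = e.a l • Y c - ga g (Y c) - ga g' (Y c)
  qx : ∀ c, 0 < c → c.Coprime (e.N * e.S.prod) → ∀ g ∈ GK j, ∀ p ∈ e.S,
    Fk (e.P p) (e.S.prod ^ 2) (ga g (dep e.N e.w e.a e.S φ (Y c)))

attribute [instance] Fld.fK Fld.nK

namespace Fld

variable {e e' : Crv} (b : Fld e) (b' : Fld e')

abbrev Γ : Subgroup GQ := GK b.j

/-- a system of representatives -/
def Tv (c : ℕ) (T : Finset GQ) : Prop :=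
  (∀ g ∈ T, g ∈ b.Γ) ∧ ∀ g ∈ b.Γ, ∃! h, h ∈ T ∧ g⁻¹ * h ∈ Hc b.j c

/-- an additive character modulo `p ^ n` of conductor `c` -/
structure Ad (n c : ℕ) (χ : GQ → ℕ) : Prop where
  add : ∀ g ∈ b.Γ, ∀ h ∈ b.Γ, χ (g * h) ≡ χ g + χ h [MOD pp ^ n]
  ker : ∀ g ∈ Hc b.j c, pp ^ n ∣ χ g

/-- good auxiliary primes: `q ≡ ± 1` modulo `p ^ n`, `det (1 - F²)` has bounded valuation -/
structure Gp (m n q : ℕ) : Prop where
  out : q ∉ e.S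
  cop : ¬ q ∣ b.δ'
  typ : ∃ k, Typ b.K q k ∧ pp ^ n ∣ k
  gq : ¬ (pp : ℤ) ^ m ∣ ((q : ℤ) + 1) ^ 2 - e.a q ^ 2

/-- one level of a tower -/
structure Tw (m n c : ℕ) (χ : GQ → ℕ) : Prop extends b.Ad n c χ where
  sq : Squarefree c
  one : 1 < c
  crd : c.primeFactors.card ≤ m
  gp : ∀ q ∈ c.primeFactors, b.Gp m n q
  ram : ∀ q ∈ c.primeFactors, ∀ P, Ov q P → ∃ g, Inert P g ∧ ¬ pp ^ m ∣ χ g ∧
    ∀ h ∈ b.Γ ⊓ dec P, ∃ k, χ h ≡ k * χ g [MOD pp ^ n]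

/-- the bad primes -/
def T (_ : Fld e) (c : ℕ) : Finset ℕ := e.S.toFinset ∪ c.primeFactors

/-- the residual action -/
def ab (_ : Fld e) (J : ℕ) (χ : GQ → ℕ) (g : GQ) : M2 (Rb J) :=
  (Ideal.Quotient.mk _ (1 + X) : Rb J) ^ χ g • (e.r g).map (cb J)

/-- **the algebraic side of the anchor** -/
def Z0 (J c : ℕ) (χ : GQ → ℕ) : Set (GQ → Fin 2 → Rb J) :=
  {x | Cc b.Γ (b.T c) (b.ab J χ) x ∧ ∀ g ∈ dec (e.P pp), x g = 0}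

/-- **the analytic side**: the order in `T` of `∑ (1 + T) ^ χ g • g h` is at most `l` -/
def An (L : List ℕ) (c : ℕ) (χ : GQ → ℕ) (l : ℕ) : Prop := ∀ T, b.Tv c T → ∃ i ≤ l,
  ¬ Zp (e.P pp) (∑ g ∈ T, ((χ g).choose i : Qb) *
    (zf (ga g (dep e.N e.w e.a L b.φ (b.Y c))) / (L.prod ^ 2 : ℕ)))

/-- the anchor for one curve -/
def Anc : Prop := ∃ (m B : ℕ) (c : ℕ → ℕ) (χ : ℕ → GQ → ℕ),
  (∀ᶠ n in atTop, b.Tw m n (c n) (χ n)) ∧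
  (∀ J, ∀ᶠ n in atTop, Nat.card (b.Z0 J (c n) (χ n)) ≤ pp ^ B) ∧
  ∃ J, ∀ᶠ n in atTop, ∃ l, pp ^ (2 * l) ≤ Nat.card (b.Z0 J (c n) (χ n)) ∧ b.An e.S (c n) (χ n) l

/-- **the anchor for a pair of curves**: the sum of the two inequalities -/
def Anc2 : Prop := ∃ (m B : ℕ) (c c' : ℕ → ℕ) (χ χ' : ℕ → GQ → ℕ),
  (∀ᶠ n in atTop, b.Tw m n (c n) (χ n) ∧ b'.Tw m n (c' n) (χ' n)) ∧
  (∀ J, ∀ᶠ n in atTop, Nat.card (b.Z0 J (c n) (χ n)) ≤ pp ^ B ∧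
    Nat.card (b'.Z0 J (c' n) (χ' n)) ≤ pp ^ B) ∧
  ∃ J, ∀ᶠ n in atTop, ∃ l l',
    pp ^ (2 * (l + l')) ≤ Nat.card (b.Z0 J (c n) (χ n)) * Nat.card (b'.Z0 J (c' n) (χ' n)) ∧
    b.An e.S (c n) (χ n) l ∧ b'.An e'.S (c' n) (χ' n) l'

/-- the trace of the depleted Heegner point -/
def hp (T : Finset GQ) (c : ℕ) : Pt e.A e.B := ∑ g ∈ T, ga g (dep e.N e.w e.a e.S b.φ (b.Y c))

/-- the same field with the same choices -/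
structure Same : Prop where
  δ' : b'.δ' = b.δ'
  Γ : b'.Γ = b.Γ
  hc : ∀ c, Hc b'.j c = Hc b.j c
  typ : ∀ q k, Typ b'.K q k ↔ Typ b.K q k
  φ : b'.φ = b.φ
  c : b'.c = b.c

end Fld

end Vale.Agent.P014Y.F
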