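import Vale.Agent.P004F.Sys
import Vale.Agent.P014U.X4F.Pat.Ul

/-! # P014Y, block F: the patched system (pure algebra) and the row `KG` -/

set_option linter.all false

open Matrix PowerSeries Submodule Set

noncomputable section

namespace Vale.Agent.P014Y.F

open Vale.Agent.P014U
open X4F.Pat (La)

export Vale.Agent.P004F (Ix Pk Gl)

variable [Pp]

/-- the axioms of a stage -/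
structure Ok {R G σ : Type} [CommRing R] [Group G] [Fintype σ] [DecidableEq σ] (γ : Gl R G σ)
    (p : Pk R G σ) : Prop where
  coc : ∀ g h i, (p.u (g * h) - p.u g - γ.ρ g * p.u h) i ∈ p.Rl γ
  gen : p.Us γ univ ⊔ span R (insert p.t {v | ∃ x i, v = p.m x i}) = ⊤
  lu : ∀ x i, p.l x i ∈ p.Us γ univ
  sv : ∀ g ∈ γ.Dv, ∀ i, p.u g i - γ.e g i • p.t ∈ p.Rl γ
  sp : ∀ x, ∀ g ∈ γ.D x, ∀ i, p.u g i - (γ.ρ g - 1) i ᵥ* p.m x ∈ p.Rl γ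
  fH : ∀ j, p.f j ∈ p.Us γ γ.H
  sH : ∀ j, p.s j ∈ p.Us γ γ.H
  kr : ∀ n, p.Rm γ *ᵥ p.κ n = 0
  ks : ∀ n l i, l ∉ n → p.s (l, i) ⬝ᵥ p.κ n = 0
  kf : ∀ n l i, l ∈ n → p.f (l, i) ⬝ᵥ p.κ n = 0
  r1 : ∀ n l, l ∉ n → p.s (l, 1) ⬝ᵥ p.κ (insert l n) = p.f (l, 0) ⬝ᵥ p.κ n
  r0 : ∀ n l, l ∉ n → p.s (l, 0) ⬝ᵥ p.κ (insert l n) = -(p.f (l, 1) ⬝ᵥ p.κ n)
  dv : ∀ n, γ.bv ∣ (pp : R) ^ γ.c * (p.t ⬝ᵥ p.κ n)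

/-- `N` is surjective at the prime `π` -/
def Sj (π : La) (N : Matrix (Fin 2) (Fin 2 ⊕ Fin 2) La) : Prop :=
  ∃ (N' : Matrix (Fin 2 ⊕ Fin 2) (Fin 2) La) (η : La), ¬ π ∣ η ∧ N * N' = η • 1

/-- the rows of the matrices `ρ g - 1`, `g ∈ D` -/
def Au {G : Type} [Group G] (ρ : G →* Matrix (Fin 2) (Fin 2) La) (D : Set G) :
    Submodule La (Fin 2 → La) := span La {v | ∃ g ∈ D, ∃ i, v = (ρ g - 1) i}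

/-- **the patched system** -/
structure Sys where
  G : Type
  [gG : Group G]
  σ : Type
  [fσ : Fintype σ]
  [dσ : DecidableEq σ]
  γ : Gl La G σ
  ϖ : La
  θ : G →* G
  θθ : ∀ g, θ (θ g) = g
  nH : γ.H.Normal
  ρH : ∀ h ∈ γ.H, γ.ρ h = 1
  θH : ∀ h ∈ γ.H, θ h ∈ γ.H
  sah : ∃ z, ∃ a : La, γ.ρ z = a • 1 ∧ (∀ π : La, Prime π → π ∣ a - 1 → π ∣ (pp : La) * ϖ) ∧
    ∀ g, z * g * z⁻¹ * g⁻¹ ∈ γ.H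
  spn : ∀ B, (pp : La) ^ γ.c • B ∈ span La (range γ.ρ)
  gen : ∃ g, ∃ a a' : La, γ.ρ g = a • 1 ∧ γ.ρ (θ g) = a' • 1 ∧
    ∀ π : La, Prime π → π ∣ a - a' → π ∣ (pp : La) * ϖ
  bv0 : γ.bv ≠ 0
  av : ∃ A : Matrix (Fin 2) (Fin 2) La, (∀ i, A i ∈ Au γ.ρ γ.Dv) ∧ A.det ∣ (pp : La) ^ γ.c * γ.bv
  ap : ∀ x, ∃ E : Matrix (Fin 2) (Fin 2) La, IsUnit E.det ∧ ∀ i, ((γ.N x)ᵀ * E) i ∈ Au γ.ρ (γ.D x)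
  gs : Fin 3 → G
  is : Fin 3 → Fin 2
  gv : ∀ k, gs k ∈ γ.Dv
  β : La
  βe : β = det (Matrix.of fun k => Fin.snoc (α := fun _ => La) ((γ.ρ (gs k) - 1) (is k))
    (γ.e (gs k) (is k)))
  β0 : β ≠ 0
  sep : ∀ π : La, Prime π → ¬ π ∣ (pp : La) → ¬ π ∣ ϖ → (∀ x, Sj π (γ.N x)) ∨
    (¬ π ∣ β ∧ ∃ x, (∃ i j, ¬ π ∣ γ.N x i j) ∧ ∀ y, y ≠ x → Sj π (γ.N y))
  𝒮 : Set (Pk La G σ)
  ok : ∀ p ∈ 𝒮, Ok γ p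
  iso : ∀ π : La, Prime π → ¬ π ∣ (pp : La) → ¬ π ∣ ϖ → ∃ η, ¬ π ∣ η ∧ ∀ p ∈ 𝒮, p.Iso γ η
  ext : ∀ p ∈ 𝒮, ∀ h ∈ γ.H, ∃ q ∈ 𝒮, Nonempty (p.Ext γ q (θ h * h))
  o : Pk La G σ
  mem : o ∈ 𝒮
  emp : IsEmpty o.ι
  mu : map PadicInt.toZMod (o.Mx γ).det ≠ 0
  an : o.t ⬝ᵥ o.κ ∅ ≠ 0

attribute [instance] Sys.gG Sys.fσ Sys.dσ

/-- **the Kolyvagin argument** away from `p` and `ϖ` -/
def KG : Prop := ∀ S : Sys, (∀ π : La, Prime π → π ∣ S.ϖ → ¬ π ∣ (S.o.Mx S.γ).det) →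
  (S.o.Mx S.γ).det ∣ (S.o.t ⬝ᵥ S.o.κ ∅) ^ 2

/-- the comparison of the orders modulo `p` -/
def ORD : Prop := ∀ (D Θ : La) (l : ℕ), D ∣ Θ ^ 2 → ¬ X ^ (l + 1) ∣ map PadicInt.toZMod Θ →
  ¬ X ^ (2 * l + 1) ∣ map PadicInt.toZMod D ∧
  (X ^ (2 * l) ∣ map PadicInt.toZMod D → Θ ^ 2 ∣ D)

end Vale.Agent.P014Y.F
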