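import Vale.Agent.P014Y.F.Defs
import Vale.Agent.P014Y.F.Sys
import Vale.Agent.P014Y.F.Rec.St
import Vale.Agent.P014U.X4F.Lt.Loct

/-! # P014Y, block F: the rows -/

set_option linter.all false

open UpperHalfPlane NumberField Matrix Filter PowerSeries
open scoped Classical NumberTheorySymbols Pointwise

noncomputable section

namespace Vale.Agent.P014Y.F

open Vale.Agent.P022 Vale.Agent.P004K Vale.Agent.P014U
open Vale.Agent.P022K.G2 (In St ip)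
open Vale.Agent.P027M.S (Inert)
open Vale.Agent.P022D.W (dec)
open Vale.Agent.P022E.GW (Ov Fb)
open P004M.TE (Pt ga)
open P004F.Pr (ac Zs)
open P004F.Qx (zf Fk Ur)

export Vale.Agent.P014U.X4F.Lt (LOCT)

variable [Pp]

namespace Fld

variable {e e' : Crv} (b : Fld e) (b' : Fld e')

/-- a ring class character with values in `Rj j` -/
structure Chr (j c : ℕ) (Ψ : GQ → Rj j) : Prop where
  sq : Squarefree c
  cop : ∀ q ∈ c.primeFactors, q ∉ e.S ∧ ¬ q ∣ b.δ'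
  mul : ∀ g ∈ b.Γ, ∀ h ∈ b.Γ, Ψ (g * h) = Ψ g * Ψ h
  ker : ∀ g ∈ Hc b.j c, Ψ g = 1
  ord : ∀ g ∈ b.Γ, Ψ g ^ pp ^ (2 * j) = 1

/-- the action -/
def aa (_ : Fld e) (j : ℕ) (Ψ : GQ → Rj j) (g : GQ) : M2 (Rj j) := Ψ g • (e.r g).map (cj j)

/-- Kolyvagin primes -/
structure Kp (j c : ℕ) (Ψ : GQ → Rj j) where
  l : ℕ
  P : Ideal (𝓞 Qb)
  φ : GQ
  τ : GQ
  kp : Rc.Kp (j + 1) b.Γ l P φ τ
  out : l ∉ b.T c
  cop : ¬ l ∣ b.M * b.δ'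
  tr : ∀ i i', (pp : ℤ_[pp]) ^ (j + 1) ∣ (e.r (b.c * φ) - 1) i i'
  psi : Ψ (b.c * φ) = 1
  gen : ∀ c', 0 < c' → ¬ l ∣ c' → Gen b.j c' l (l + 1) τ

/-- distinct primes -/
def Inj {j c : ℕ} {Ψ : GQ → Rj j} (n : Finset (b.Kp j c Ψ)) : Prop :=
  ∀ k ∈ n, ∀ k' ∈ n, k.l = k'.l → k = k'

/-- **framed Selmer cocycles**: a multiple of `ε` at `P pp`, a coboundary at `P p`, `p ∈ σ` -/
structure Sel {R M : Type} [CommRing R] [AddCommGroup M] [Module R M] (T : Finset ℕ)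
    (a : GQ → M2 R) (ε : GQ → Fin 2 → R) (x : GQ → Fin 2 → M) (t : M) (m : e.σ → Fin 2 → M) : Prop
    extends Cc b.Γ T a x where
  sv : ∀ g ∈ dec (e.P pp), ∀ i, x g i = ε g i • t
  sp : ∀ p : e.σ, ∀ g ∈ dec (e.P p), x g = ac (a g - 1) (m p)

/-- the strict module modulo `p` -/
def Z1 (J c : ℕ) (χ : GQ → ℕ) : Set ((GQ → Fin 2 → Rb J) × (e.σ → Fin 2 → Rb J)) :=
  {x | b.Sel (b.T c) (b.ab J χ) 0 x.1 (0 : Rb J) x.2}

/-- the extra prime is split, residually trivial, and `χ` of its Frobenius has valuation `v` -/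
structure Xq (c : ℕ) (χ : GQ → ℕ) (q v : ℕ) : Prop where
  pr : q.Prime
  out : q ∉ b.T c
  cop : ¬ q ∣ b.δ'
  spl : ∀ P, Ov q P → dec P ≤ b.Γ
  res : ∀ P, Ov q P → ∀ g ∈ dec P, (e.r g).map PadicInt.toZMod = 1
  val : ∀ P, Ov q P → ∀ g, Fb q P g → pp ^ v ∣ χ g ∧ ¬ pp ^ (v + 1) ∣ χ g

/-- the perturbation -/
structure Pe (m k : ℕ) (y : ℕ → ℕ) (n c : ℕ) (χ : GQ → ℕ) (q : ℕ) (χ' : GQ → ℕ) : Prop
    extends b.Ad n q χ' where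
  xq : ∃ v < m, b.Xq c χ q v
  gp : b.Gp m n q
  ram : ∀ P, Ov q P → ∃ g, Inert P g ∧ ¬ pp ^ m ∣ χ' g
  odd : ∀ p ∈ e.S, p ≠ pp → χ' (b.φ p) ≡ k * y p [MOD pp ^ n]
  two : pp ^ n ∣ χ' (b.φ pp)
  tw : ∀ l ∈ c.primeFactors, ∀ P, Ov l P → ∀ g ∈ b.Γ ⊓ dec P, pp ^ n ∣ χ' g

/-- the output of the Euler system for one character -/
structure Es (c₀ j c : ℕ) (Ψ : GQ → Rj j) (ε : GQ → Fin 2 → Rj j)
    (κ : Finset (b.Kp j c Ψ) → GQ → Fin 2 → Rj j) (t : Finset (b.Kp j c Ψ) → Rj j)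
    (m : Finset (b.Kp j c Ψ) → e.σ → Fin 2 → Rj j) : Prop where
  coc : ∀ g ∈ dec (e.P pp), ∀ h ∈ dec (e.P pp), ε (g * h) = ε g + b.aa j Ψ g *ᵥ ε h
  lc : ∃ W : Subgroup GQ, IsOpen (W : Set GQ) ∧ ∀ w ∈ W, w ∈ dec (e.P pp) → ε w = 0
  free : (∀ g ∈ b.Γ, Ψ g - 1 ∈ Ideal.span {mj j X}) → ∀ k ≤ j, ∀ (s : ℤ_[pp]) (v : Fin 2 → ℤ_[pp]),
    (∀ g ∈ dec (e.P pp), ∀ i, cj j s * ε g i - cj j (((e.r g - 1) *ᵥ v) i) ∈
      Ideal.span {(pp : Rj j) ^ k, mj j X}) → (pp : ℤ_[pp]) ^ k ∣ (pp : ℤ_[pp]) ^ c₀ * s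
  sel : ∀ n, b.Inj n → b.Sel (b.T c ∪ n.image (·.l)) (b.aa j Ψ) ε (κ n) (t n) (m n)
  kf : ∀ n, b.Inj n → ∀ k ∈ n, κ n (k.φ ^ 2) = 0
  rel : ∀ n k, k ∉ n → b.Inj (insert k n) →
    (e.r b.c).map (cj j) *ᵥ κ (insert k n) k.τ = κ n (k.φ ^ 2)
  dv : (∃ v, e.Iv pp v) → ∀ n, b.Inj n → ∀ ψ, ψ = Ψ (b.φ pp) →
    pp * ψ ^ 2 - e.a pp * ψ + (if pp ∣ e.N then 0 else 1) ∣ (pp : Rj j) ^ c₀ * t n
  an : ∀ χ : GQ → ℕ, (∀ g ∈ b.Γ, Ψ g - mj j (1 + X) ^ χ g ∈ Ideal.span {(pp : Rj j)}) → ∀ l < j,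
    b.An e.S c χ l → t ∅ ∉ Ideal.span {(pp : Rj j), mj j X ^ (l + 1)}
  vl : (∀ g ∈ b.Γ, Ψ g - 1 ∈ Ideal.span {mj j X}) → ∀ i ≤ j, (∀ T, b.Tv c T →
    Fk (e.P pp) (pp ^ i * e.S.prod ^ 2) (b.hp T c)) → t ∅ ∈ Ideal.span {(pp : Rj j) ^ i, mj j X}

/-- the strict group of the frame at the trivial character -/
def Zf (k c : ℕ) : Set ((GQ → Fin 2 → ZMod (pp ^ k)) × (e.σ → Fin 2 → ZMod (pp ^ k))) :=
  {x | b.Sel (b.T c) (fun g => (e.r g).map (PadicInt.toZModPow k)) 0 x.1 (0 : ZMod (pp ^ k)) x.2}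

/-- a conductor with at most `m` good primes of level `n` -/
structure Cd (m n c : ℕ) : Prop where
  one : 1 < c
  sq : Squarefree c
  crd : c.primeFactors.card ≤ m
  gp : ∀ q ∈ c.primeFactors, b.Gp m n q

/-- **the lower bound for the strict group at the trivial character** -/
def Lb : Prop := ∃ m : ℕ, ∀ n : ℕ, ∃ c : ℕ, b.Cd m n c ∧ ∀ i ≤ n,
  (∀ T, b.Tv c T → Fk (e.P pp) (pp ^ i * e.S.prod ^ 2) (b.hp T c)) →
  pp ^ (2 * i) ≤ Nat.card (b.Zf (2 * n) c)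

/-- the strict groups at the trivial character are bounded -/
def Bd : Prop := ∀ m : ℕ, ∃ C : ℕ, ∀ n c : ℕ, m ≤ n → b.Cd m n c → Nat.card (b.Zf (2 * n) c) ≤ C

end Fld

/-! ### the data exist -/

/-- two curves with the same primes and places -/
def CRV : Prop := ∀ N G a N' G' a', P004N.RN N G a → P004N.RN N' G' a' → ∃ A B A' B' : ℤ,
  ∀ S₀ : Finset ℕ, (∀ l ∈ S₀, l.Prime) → ∃ e e' : Crv,
    (e.N = N ∧ e.G = G ∧ e.a = a ∧ e.A = A ∧ e.B = B) ∧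
    (e'.N = N' ∧ e'.G = G' ∧ e'.a = a' ∧ e'.A = A' ∧ e'.B = B') ∧
    e'.S = e.S ∧ e'.P = e.P ∧ ∀ l ∈ S₀, l ∈ e.S

def FLD : Prop := ∀ e e' : Crv, e'.S = e.S → e'.P = e.P → ∃ T, ∀ δ', T ≤ δ' → e.Adm δ' →
  ∃ (b : Fld e) (b' : Fld e'), b.δ' = δ' ∧ b.Same b'

/-! ### presentations -/

/-- `Γ` is the group of an imaginary quadratic field, `a` is a representation of `Γ` which is
unramified outside `T` -/
structure Gd {R n : Type} [CommRing R] [Fintype n] [DecidableEq n] (Γ : Subgroup GQ) (T : Finset ℕ)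
    (a : GQ → Matrix n n R) : Prop extends P004F.Pr.Gd Γ T a where
  pm : pp ∈ T

/-- **the presentation**: relations minus generators -/
def PRESN : Prop := ∀ (R : Type) [CommRing R] [IsLocalRing R] [Finite R] (π : R →+* ZMod pp)
  (μ ν κ : Type) [Fintype μ] [Fintype ν] [Fintype κ]
  (Γ : Subgroup GQ) (T : Finset ℕ) (a : GQ → M2 R) (P : κ → Ideal (𝓞 Qb))
  (b : κ → GQ → Matrix (Fin 2) μ R) (N : Matrix ν μ R), Gd Γ T a →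
  (∀ i, ∃ l ∈ T, Ov l (P i)) → (∀ i j, ∀ g ∈ Γ, P j = g • P i → i = j) →
  (∃ i, Ov pp (P i) ∧ dec (P i) ≤ Γ ∧ ∀ j, Ov pp (P j) → j = i) →
  (∀ i, ∀ g ∈ Γ ⊓ dec (P i), ∀ h ∈ Γ ⊓ dec (P i), ∃ β : Matrix (Fin 2) ν R,
    b i (g * h) = b i g + a g * b i h + β * N) →
  (∀ i, ∃ W : Subgroup GQ, IsOpen (W : Set GQ) ∧ ∀ g ∈ Γ ⊓ dec (P i),
    ∀ w ∈ Γ ⊓ dec (P i), w ∈ W → b i (g * w) = b i g) →
  (∃ l ∈ T, l ≠ pp ∧ ∃ Q, Ov l Q ∧ dec Q ≤ Γ ∧ (∀ g ∈ dec Q, (a g).map π = 1) ∧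
    ∀ i, ∀ g ∈ Γ, Q ≠ g • P i) →
  ∃ (g r : ℕ) (Q : Matrix (Fin r) (Fin g) R) (u : GQ → Matrix (Fin 2) (Fin g) R)
    (w : Matrix μ (Fin g) R),
    (∀ (M : Type) [AddCommGroup M] [Module R M],
      Set.BijOn (fun y : Fin g → M => (fun γ => ac (u γ) y, ac w y))
        {y | ac Q y = 0 ∧ ac (N * w) y = 0} {x | x ∈ Zs M Γ T a P b ∧ ac N x.2 = 0}) ∧
    pp ^ g ≤ Nat.card (Zs (ZMod pp) Γ T (fun γ => (a γ).map π) P fun i γ => (b i γ).map π) *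
      pp ^ Fintype.card ν ∧
    r + Fintype.card μ + 2 = g + Fintype.card κ * 2

/-- **the number of generators is bounded** when a bounded number of primes is added -/
def BND : Prop := ∀ (n : Type) [Fintype n] [DecidableEq n] (Γ : Subgroup GQ) (T : Finset ℕ)
  (a : GQ → Matrix n n (ZMod pp)), Gd Γ T a → ∃ C : ℕ, ∀ (μ κ : Type) [Fintype μ]
  (T' : Finset ℕ) (P : κ → Ideal (𝓞 Qb)) (b : κ → GQ → Matrix n μ (ZMod pp)),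
  (∀ l ∈ T', l.Prime) → Finite (Zs (ZMod pp) Γ (T ∪ T') a P b) ∧
    Nat.card (Zs (ZMod pp) Γ (T ∪ T') a P b) ≤
      pp ^ (C + Fintype.card μ + 2 * Fintype.card n * T'.card)

/-! ### local rows -/

/-- no invariants of inertia: the local cohomology has bounded exponent -/
def VAN : Prop := ∀ (e : Crv) (b : Fld e), ∃ c₀ : ℕ, ∀ p ∈ e.S, p ≠ pp → p ∉ e.σ →
  ∀ j c Ψ, b.Chr j c Ψ → ∀ (M : Type) [AddCommGroup M] [Module (Rj j) M] (T : Finset ℕ)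
    (x : GQ → Fin 2 → M), Cc b.Γ T (b.aa j Ψ) x → ∀ P, Ov p P →
    ∃ m, ∀ g ∈ dec P, pp ^ c₀ • x g = ac (b.aa j Ψ g - 1) m

/-- inertia is unipotent at the primes of `σ` -/
def UNI : Prop := ∀ (e : Crv), ∀ p ∈ e.σ, ∀ g, Inert (e.P p) g → (e.r g - 1) ^ 2 = 0 ∧
  (e.r (e.τ p) = 1 → e.r g = 1)

/-- an unramified Frobenius element is not scalar -/
def NSC : Prop := ∀ (e : Crv) p P φ, Ov p P → p ≠ pp → Fb p P φ → (∀ g, Inert P g → e.r g = 1) →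
  ∀ s : ℤ_[pp], e.r φ ≠ s • 1

/-- the image of `Γ` spans the matrices -/
def ABS : Prop := ∀ (e : Crv) (b : Fld e), ∃ c₀ : ℕ, ∀ B : M2 ℤ_[pp],
  (pp : ℤ_[pp]) ^ c₀ • B ∈ Submodule.span ℤ_[pp] (e.r '' b.Γ)

/-- Kolyvagin primes exist -/
def KPX : Prop := ∀ (e : Crv) (b : Fld e) j c Ψ, b.Chr j c Ψ → ∀ h ∈ b.Γ,
  (∀ i i', (pp : ℤ_[pp]) ^ (j + 1) ∣ (e.r h - 1) i i') → Ψ h = 1 →
  ∀ W : Subgroup GQ, IsOpen (W : Set GQ) → ∀ T : Finset ℕ,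
  ∃ k : b.Kp j c Ψ, k.l ∉ T ∧ (b.c * h * (b.c * h))⁻¹ * k.φ ^ 2 ∈ W

/-! ### the place above `p` -/

/-- finite index of the formal group -/
def IDX : Prop := ∀ (A B : ℤ), 4 * A ^ 3 + 27 * B ^ 2 ≠ 0 → ∀ P φ, Ov pp P → Fb pp P φ →
  ∀ κ f : ℕ, κ ≠ 0 → f ≠ 0 → ∃ n : ℕ, n ≠ 0 ∧
    ∀ y : Pt A B, Ur P y → ga (φ ^ f) y = y → Fk P κ (n • y)

/-- the split ordinary case -/
def SPL : Prop := ∀ e : Crv, (∃ v, e.Iv pp v) → ∀ κ : ℕ, κ ≠ 0 → ∃ c₀ : ℕ, ∀ y : Pt e.A e.B,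
  Ur (e.P pp) y → ∃ (n k : ℕ) (w : Pt e.A e.B), ¬ pp ∣ n ∧ pp ^ k • w = 0 ∧ Ur (e.P pp) w ∧
    Fk (e.P pp) κ ((pp ^ c₀ * n) • y - w)

/-- the Frobenius eigenvalue in the split ordinary case -/
def LGC : Prop := ∀ (e : Crv) v φ (α : ℤ_[pp]), e.Iv pp v → Fb pp (e.P pp) φ →
  e.r φ *ᵥ v = α • v → pp - e.a pp * α + (if pp ∣ e.N then 0 else α ^ 2) = 0

/-! ### global rows -/

/-- **the Kolyvagin classes** -/
def ES : Prop := ∀ (e : Crv) (b : Fld e), ∃ c₀ : ℕ, ∀ j, 0 < j →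
  ∃ ε : Rj j → GQ → Fin 2 → Rj j, ∀ c Ψ, b.Chr j c Ψ →
    ∃ κ t m, b.Es c₀ j c Ψ (ε (Ψ (b.φ pp))) κ t m

/-- the extra prime exists -/
def PE : Prop := ∀ (e : Crv) (b : Fld e) (m : ℕ), ∃ k m' : ℕ, k ≠ 0 ∧ ∀ y n c χ, m' ≤ n →
  b.Tw m n c χ → ∃ q χ', b.Pe m' k y n c χ q χ'

/-- the analytic side after the change of conductor -/
def DPL : Prop := ∀ (e : Crv) (b : Fld e) m n c χ q v l, b.Tw m n c χ → b.Xq c χ q v →
  l + 2 * pp ^ v < pp ^ n → b.An e.S c χ l → b.An e.S (c * q) χ (l + 2 * pp ^ v)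

/-- the algebraic side after the change of the local conditions -/
def CNT : Prop := ∀ (e : Crv) (b : Fld e) m n c χ q v B J J₀, b.Tw m n c χ → b.Xq c χ q v →
  J ≤ pp ^ n → J₀ ≤ J → B + 4 * pp ^ v < J → Nat.card (b.Z0 J c χ) ≤ pp ^ B →
  Nat.card (b.Z0 J₀ c χ) * pp ^ (4 * pp ^ v) ≤ Nat.card (b.Z1 J (c * q) χ) ∧
    Nat.card (b.Z1 J (c * q) χ) ≤ pp ^ (B + 4 * pp ^ v)

/-- kernels of matrices modulo powers of `p` -/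
def KER : Prop := ∀ (n : Type) [Fintype n] [DecidableEq n] (M : Matrix n n ℤ_[pp]) (a k : ℕ),
  (pp : ℤ_[pp]) ^ a ∣ M.det → a ≤ k →
  pp ^ a ≤ Nat.card {y // M.map (PadicInt.toZModPow k) *ᵥ y = 0}

/-- **export: the main conjecture at the trivial character** -/
def FX : Prop := ∀ (e : Crv) (b : Fld e), b.Anc → b.Lb

/-- **export: the upper bound** -/
def FU : Prop := ∀ (e : Crv) (b : Fld e) (m B : ℕ) (c : ℕ → ℕ) (χ : ℕ → GQ → ℕ),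
  (∀ᶠ n in atTop, b.Tw m n (c n) (χ n)) →
  (∀ J, ∀ᶠ n in atTop, Nat.card (b.Z0 J (c n) (χ n)) ≤ pp ^ B) →
  ∀ J l, ∀ᶠ n in atTop, b.An e.S (c n) (χ n) l → Nat.card (b.Z0 J (c n) (χ n)) ≤ pp ^ (2 * l)

/-- the anchor for a pair gives the anchor for the first curve -/
theorem anc_of (fu : FU) {e e' : Crv} {b : Fld e} {b' : Fld e'} (h : b.Anc2 b') : b.Anc := by
  obtain ⟨m, B, c, c', χ, χ', tw, up, J, lo⟩ := h
  refine ⟨m, B, c, χ, tw.mono fun n a => a.1, fun J => (up J).mono fun n a => a.1, J, ?_⟩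
  have k := (eventually_all_finset (Finset.range (B + 1))).2 fun l _ =>
    fu e' b' m B c' χ' (tw.mono fun n a => a.2) (fun J => (up J).mono fun n a => a.2) J l
  filter_upwards [k, lo, up J] with n k ⟨l, l', h1, h2, h3⟩ u
  have h4 := (Nat.pow_le_pow_iff_right one_lt).1
    (h1.trans ((Nat.mul_le_mul u.1 u.2).trans_eq (pow_add _ _ _).symm))
  refine ⟨l, Nat.le_of_mul_le_mul_right ?_ (pow_pos pp_pos (2 * l')), h2⟩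
  rw [← pow_add, ← mul_add]
  exact h1.trans (Nat.mul_le_mul_left _ (k l' (Finset.mem_range.2 (by omega)) h3))

end Vale.Agent.P014Y.F
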