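import Vale.Agent.P014Y.F.Fx0
import Vale.Agent.P004F.Pat.Vec

/-! # P014Y, block F: the exports FX and FU -/

set_option linter.all false

open NumberField Matrix Filter PowerSeries Submodule Set
open scoped Classical Pointwise

noncomputable section

namespace Vale.Agent.P014Y.F.Fx

open Vale.Agent.P022 Vale.Agent.P004K Vale.Agent.P014U Vale.Agent.P014Y.F.Pa
open X4F.Pat (U U_of U_bdd)
open P004F.Pat (U_ch)

variable [Pp]

theorem tw_lev {e : Crv} {b : Fld e} {m n n' c : ℕ} {χ : GQ → ℕ} (h : n' ≤ n) (t : b.Tw m n c χ) :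
    b.Tw m n' c χ :=
  have d := pow_dvd_pow pp h
  ⟨⟨fun g a g' a' => (t.add g a g' a').of_dvd d, fun g a => d.trans (t.ker g a)⟩, t.sq, t.one, t.crd,
    fun q a => ⟨(t.gp q a).out, (t.gp q a).cop, (t.gp q a).typ.imp fun _ a => ⟨a.1, d.trans a.2⟩,
      (t.gp q a).gq⟩, fun q a P o => (t.ram q a P o).imp fun _ a =>
    ⟨a.1, a.2.1, fun g k => (a.2.2 g k).imp fun _ a => a.of_dvd d⟩⟩

theorem dbl : Tendsto (fun j => 2 * (j + 1)) atTop atTop :=
  tendsto_atTop_mono (fun j => by show j ≤ _; omega) tendsto_id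

/-- the rows which depend on the direction of the perturbation -/
structure Rows [Om] : Prop where
  sqx : SQX
  glb : GLB
  lmx : LMX
  lok : LOK
  lis : LIS
  lex : LEX
  num : NUM

/-- **export FX** -/
theorem fx (kg : KG) (ord : ORD) (h : ∀ [Om], Rows) : FX := by
  intro e b ⟨m, B, c, χ, tw, up, J, lo⟩
  letI : Om := ⟨X⟩
  replace tw := U_of (dbl.eventually tw)
  replace lo := U_of (dbl.eventually lo)
  replace up := fun J => U_of (dbl.eventually (up J))
  obtain ⟨l, hl⟩ := U_ch lo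
  obtain ⟨l, -, el⟩ := U_bdd l (C := B) ((hl.and (up J)).mono fun j a => by
    have := (Nat.pow_le_pow_iff_right one_lt).1 (a.1.1.trans a.2); omega)
  replace hl := (hl.and el).mono fun j a => a.2 ▸ a.1
  obtain ⟨s, d, e1, e2⟩ := h.sqx e b m B J l _ _ tw up (hl.mono fun j a => a.2)
  obtain ⟨w, n, L, ho, dv⟩ := sys kg h.glb h.lmx h.lok h.lis h.lex h.num e b s
  obtain ⟨-, n2, n3⟩ := h.num e b s w n L ho
  have D : constantCoeff (L.pk.t ⬝ᵥ L.pk.κ ∅) ^ 2 ∣ constantCoeff (L.pk.Mx (s.γ n)).det := by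
    by_cases z : constantCoeff (L.pk.Mx (s.γ n)).det = 0
    · rw [z]; exact dvd_zero _
    rw [← map_pow]
    refine map_dvd _ ((ord _ _ _ (dv fun π a a' a'' =>
      z (X_dvd_iff.1 ((a.associated_of_dvd X_prime a').dvd'.trans a''))) n3).2 (by_contra fun k => ?_))
    obtain ⟨a, ha⟩ := Nat.exists_eq_succ_of_ne_zero (n := 2 * s.l) fun z => k (by simp [z])
    obtain ⟨j, ⟨a1, a2⟩, a3⟩ := (((n2 a (by rwa [ha] at k)).and e2).and hl).exists
    have := (Nat.pow_le_pow_iff_right one_lt).1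
      ((pow_add _ _ _).trans_le ((Nat.mul_le_mul_right _ a3.1).trans (a2.trans a1)))
    omega
  refine ⟨s.m + 1, fun N => ?_⟩
  obtain ⟨c, c1, c2, c3⟩ := ct0 e b s w n L rfl ho N
  refine ⟨c, c1, fun i hi hF => c2 _ (by omega) ?_⟩
  rw [mul_comm, pow_mul]
  exact (pow_dvd_pow_of_dvd (c3 i hi hF) 2).trans D

/-- **export FU** -/
theorem fu (kg : KG) (ord : ORD) (h : ∀ [Om], Rows) : FU := by
  intro e b m B c χ tw up J l
  letI : Om := ⟨1⟩
  by_contra k
  obtain ⟨φ, m1, m2⟩ := extraction_of_frequently_atTop (not_eventually.1 k)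
  have T := m1.tendsto_atTop.comp dbl
  obtain ⟨s, d, e1, e2⟩ := h.sqx e b m B J l (fun j => c (φ (2 * (j + 1))))
    (fun j => χ (φ (2 * (j + 1)))) (U_of ((T.eventually tw).mono fun j => tw_lev m1.le_apply))
    (fun J => U_of (T.eventually (up J))) (.of_forall fun j => (Classical.not_imp.1 (m2 _)).1)
  obtain ⟨w, n, L, ho, dv⟩ := sys kg h.glb h.lmx h.lok h.lis h.lex h.num e b s
  obtain ⟨-, n2, n3⟩ := h.num e b s w n L ho
  obtain ⟨j, a1, a2⟩ := ((n2 _ (ord _ _ _ (dv fun π a a' _ => a.not_dvd_one a') n3).1).and e2).exists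
  refine (Classical.not_imp.1 (m2 (2 * (j + 1)))).2
    (Nat.le_of_mul_le_mul_right (a2.trans (a1.trans_eq ?_)) (pow_pos pp_pos _))
  rw [e1, mul_add, pow_add]

end Vale.Agent.P014Y.F.Fx
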