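import Vale.Agent.P004K.All
import Vale.Agent.P014Y.F.Fx
import Vale.Agent.P014Y.F.Kg.Kg
import Vale.Agent.P014Y.F.Ch.Kpx
import Vale.Agent.P014Y.F.Ch.Irr
import Vale.Agent.P014Y.F.Cn.Cnt
import Vale.Agent.P014Y.F.Dp.Dpl
import Vale.Agent.P014Y.F.Va.Van
import Vale.Agent.P014Y.F.Sp.Spl
import Vale.Agent.P014Y.F.En.Row
import Vale.Agent.P014Y.F.Es.Es
import Vale.Agent.P014Y.F.Pn.Pn
import Vale.Agent.P014Y.F.Pt.Pe
import Vale.Agent.P014Y.F.Rec.All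
import Vale.Agent.P014Y.F.Pa.Eta
import Vale.Agent.P014Y.F.Pa.Lok
import Vale.Agent.P014Y.F.Pa.Twv
import Vale.Agent.P014Y.F.Pa.Sqx
import Vale.Agent.P014Y.F.Pa.Pk1
import Vale.Agent.P014Y.F.Pa.Lex
import Vale.Agent.P014Y.F.Pa.Isl
import Vale.Agent.P014Y.F.Pa.Lis
import Vale.Agent.P014Y.F.Pa.Lev
import Vale.Agent.P014Y.F.Pa.Exl
import Vale.Agent.P014Y.F.Pa.Glb
import Vale.Agent.P014Y.F.Pa.Num
import Vale.Agent.P014Y.F.Pa.Sep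

/-! # P014Y, block F: the wiring -/

namespace Vale.Agent.P014Y.F

open Vale.Agent.P004K Vale.Agent.P014U

variable [Pp]

theorem z_kpx : KPX := Ch.kpx x_rc1 x_rc2 x_rc3

theorem z_pe : PE := Pt.pe x_rc1 x_rc2 x_rc3

theorem z_dpl : DPL := dpl x_rc1 x_rc2 x_rc3 P004F.Qx.fg

theorem z_cnt : CNT := Cn.cnt Pn.presn En.uni_row x_rc1 x_rc2

theorem z_lev : Pa.LEV := Pa.lev Pn.presn X4F.Lt.loct Pn.bnd En.uni_row x_rc1 x_rc2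

theorem z_rows (h3 : pp = 3) (l : LGC) [Pa.Om] : Fx.Rows :=
  ⟨Pa.sqx x_rc1 x_rc2 (Es.es (Sp.spl h3) x_rc1 x_rc2) z_pe z_dpl z_cnt
      (Pa.sep x_rc1 x_rc2 En.uni_row (En.nsc_row h3)),
    Pa.glb x_rc1 x_rc2 Ch.abs l, Pa.lmx z_lev, Pa.lok Pa.pk1,
    Pa.lis (Pa.isl Rc.rec' x_rc1 x_rc2) (Pa.eta x_rc2 (van x_rc2) Pa.twv),
    Pa.lex Pa.pk1 z_kpx (Pa.lmx z_lev) (Pa.exl x_rc1 x_rc2), Pa.num⟩

/-- **the lower bound from the anchor** -/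
theorem fx_of (h3 : pp = 3) (l : LGC) : FX := Fx.fx kg ord (z_rows h3 l)

/-- **the upper bound** -/
theorem fu_of (h3 : pp = 3) (l : LGC) : FU := Fx.fu kg ord (z_rows h3 l)

end Vale.Agent.P014Y.F
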