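import Vale.Agent.P014Y.F.Pa.St

/-! # P014Y, block F: control at `T = 0` (rows KER, CT0) -/

set_option linter.all false

open NumberField Matrix Filter PowerSeries Submodule Set
open scoped Classical Pointwise

noncomputable section

namespace Vale.Agent.P014Y.F.Fx

open Vale.Agent.P022 Vale.Agent.P004K Vale.Agent.P014U Vale.Agent.P014Y.F.Pa
open Vale.Agent.P022D.W (dec)
open X4F.Pat (U Sy U_ge)
open P004F.Pr (ac)
open PadicInt (toZModPow)
open Module (Basis)

variable [Pp]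

namespace Ke

variable {n : Type} [Fintype n] [DecidableEq n]

/-- the normal form of a nonsingular matrix -/
theorem snf {R : Type} [CommRing R] [IsDomain R] [IsPrincipalIdealRing R] {M : Matrix n n R}
    (h : M.det ≠ 0) : ∃ (U V : Matrix n n R) (d : n → R), IsUnit U ∧ IsUnit V ∧
      M * V = U * diagonal d := by
  let e := LinearEquiv.ofInjective M.mulVecLin (mulVec_injective_of_det_ne_zero h)
  obtain ⟨b, d, c, k⟩ := Submodule.exists_smith_normal_form_of_rank_eq (Pi.basisFun R n)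
    e.finrank_eq.symm
  have u : ∀ b : Basis n R (n → R), IsUnit ((Pi.basisFun R n).toMatrix b) := fun b =>
    @isUnit_of_invertible _ _ _ ((Pi.basisFun R n).invertibleToMatrix b)
  refine ⟨_, _, d, u b, u (c.map e.symm), Matrix.ext fun i j => ?_⟩
  have := congrFun ((congrArg Subtype.val (e.apply_symm_apply (c j))).trans (k j)) i
  rw [mul_diagonal, mul_comm]
  exact this

theorem dg {M : Matrix n n ℤ_[pp]} (h : M.det ≠ 0) : ∃ v : n → ℕ,
    Associated M.det ((pp : ℤ_[pp]) ^ ∑ i, v i) ∧ ∀ k,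
      Nat.card {y // M.map (PadicInt.toZModPow k) *ᵥ y = 0} = pp ^ ∑ i, min k (v i) := by
  obtain ⟨U, V, d, a, b, e⟩ := snf h
  have a' := (isUnit_iff_isUnit_det _).1 a
  have b' := (isUnit_iff_isUnit_det _).1 b
  have e' := congrArg det e
  rw [det_mul, det_mul, det_diagonal] at e'
  have d0 : ∀ i, d i ≠ 0 := fun i z => mul_ne_zero h b'.ne_zero
    (by rw [e', Finset.prod_eq_zero (Finset.mem_univ i) z, mul_zero])
  choose v u hv using fun i =>
    IsDiscreteValuationRing.eq_unit_mul_pow_irreducible (d0 i) PadicInt.irreducible_p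
  refine ⟨v, (associated_mul_isUnit_left_iff b').1 ?_, fun k => ?_⟩
  · rw [e', funext hv, Finset.prod_mul_distrib, Finset.prod_pow_eq_pow_sum, ← mul_assoc]
    exact associated_unit_mul_left _ _ (a'.mul (IsUnit.prod_univ_iff.2 fun i => (u i).isUnit))
  let π := PadicInt.toZModPow (p := pp) k
  obtain ⟨W, w⟩ := b.map π.mapMatrix
  have i := (injective_iff_map_eq_zero' (U.map π).mulVecLin).1
    (mulVec_injective_of_isUnit (a.map π.mapMatrix))
  have q : {y : n → ZMod (pp ^ k) // ∀ i, y i ∈ (nsmulAddMonoidHom (pp ^ v i)).ker} ≃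
      {y // M.map π *ᵥ y = 0} := (toLinearEquiv' W.1 W.invertible).toEquiv.subtypeEquiv fun y => by
    show _ ↔ M.map π *ᵥ (W.1 *ᵥ y) = 0
    rw [w, mulVec_mulVec, RingHom.mapMatrix_apply, ← Matrix.map_mul, e, Matrix.map_mul,
      ← mulVec_mulVec, ← mulVecLin_apply, i, diagonal_map (map_zero _), funext_iff]
    refine forall_congr' fun j => ?_
    rw [mulVec_diagonal, hv, map_mul, mul_assoc, Pi.zero_apply,
      ((u j).isUnit.map π).mul_right_eq_zero, map_pow, map_natCast, ← Nat.cast_pow, ← nsmul_eq_mul]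
    rfl
  rw [← Nat.card_congr q, Nat.card_congr Equiv.subtypePiEquivPi, Nat.card_pi,
    ← Finset.prod_pow_eq_pow_sum]
  refine Finset.prod_congr rfl fun i _ => ?_
  refine (IsAddCyclic.card_nsmulAddMonoidHom_ker _ _).trans ?_
  rw [Nat.card_zmod]
  obtain l | l := le_total k (v i)
  · rw [min_eq_left l, Nat.gcd_eq_left (pow_dvd_pow _ l)]
  · rw [min_eq_right l, Nat.gcd_eq_right (pow_dvd_pow _ l)]

/-- a nonsingular matrix in each class -/
theorem per (M : Matrix n n ℤ_[pp]) (k : ℕ) : ∃ N : Matrix n n ℤ_[pp], N.det ≠ 0 ∧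
    N.map (PadicInt.toZModPow k) = M.map (PadicInt.toZModPow k) := by
  by_contra! c
  refine (-M).charpoly_monic.ne_zero (Polynomial.eq_zero_of_infinite_isRoot _
    (Set.infinite_of_injective_forall_mem (mul_right_injective₀ (pow_ne_zero k (PadicInt.irreducible_p (p := pp)).ne_zero))
      fun t => by_contra fun z => c _ (fun e => z ((eval_charpoly _ _).trans e)) ?_))
  have : PadicInt.toZModPow (p := pp) k ((pp : ℤ_[pp]) ^ k) = 0 := by
    rw [map_pow, map_natCast]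
    exact_mod_cast ZMod.natCast_self (pp ^ k)
  rw [sub_neg_eq_add, Matrix.map_add _ (map_add _), scalar_apply, diagonal_map (map_zero _),
    map_mul, this, zero_mul, diagonal_zero, zero_add]

end Ke

open Ke

/-- **KER** -/
theorem ker : KER := fun n _ _ M a k h ak => by
  have i : Irreducible (pp : ℤ_[pp]) := PadicInt.irreducible_p
  have l := fun {a b} => pow_dvd_pow_iff (n := a) (m := b) i.ne_zero i.not_isUnit
  · obtain ⟨N, d, e⟩ := per M k
    obtain ⟨v, s, c⟩ := dg d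
    have r : (pp : ℤ_[pp]) ^ k ∣ N.det - M.det := by
      have : PadicInt.toZModPow k (N.det - M.det) = 0 := by
        rw [map_sub, RingHom.map_det, RingHom.map_det, RingHom.mapMatrix_apply, e]
        exact sub_self _
      rwa [← RingHom.mem_ker, PadicInt.ker_toZModPow, Ideal.mem_span_singleton] at this
    have := l.1 (((dvd_sub_left h).1 ((pow_dvd_pow _ ak).trans r)).trans s.dvd)
    rw [← e, c]
    refine Nat.pow_le_pow_right pp_pos ?_
    by_cases z : ∃ i, k ≤ v i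
    · obtain ⟨i, z⟩ := z
      exact ak.trans ((min_eq_left z).ge.trans (Finset.single_le_sum (f := fun i => min k (v i))
        (fun _ _ => Nat.zero_le _) (Finset.mem_univ i)))
    · exact this.trans (Finset.sum_le_sum fun i _ => le_min (not_le.1 (not_exists.1 z i)).le le_rfl)

/-- the value at `T = 0` modulo `p ^ k` -/
def e0 (k : ℕ) : La →+* ZMod (pp ^ k) := (toZModPow k).comp constantCoeff

variable {k j : ℕ}

theorem e0_Im (h : k ≤ j + 1) (f : La) (hf : f ∈ X4F.Pat.Im (j + 1)) : e0 k f = 0 := by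
  rw [e0, RingHom.comp_apply, ← RingHom.mem_ker, PadicInt.ker_toZModPow, Ideal.mem_span_singleton,
    ← coeff_zero_eq_constantCoeff_apply]
  exact_mod_cast (pow_dvd_pow _ h).trans (X4F.Pat.mem_Im.1 hf 0 j.succ_pos)

/-- the same at a finite level -/
def ej (h : k ≤ j + 1) : Rj (j + 1) →+* ZMod (pp ^ k) := Ideal.Quotient.lift _ (e0 k) (e0_Im h)

theorem ej_ur (x : ∀ j, Rj (j + 1)) (k : ℕ) :
    ∀ᶠ j in U, ∀ h : k ≤ j + 1, ej h (x j) = e0 k (ur x) :=
  (Sy.succ.ur_spec x (k + 1)).mono fun j a h => by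
    obtain ⟨y, hy⟩ := Ideal.Quotient.mk_surjective (x j)
    have := e0_Im k.le_succ _ (a y hy)
    rw [map_sub, sub_eq_zero] at this
    rw [← hy, ← this]; rfl

theorem ej_ps [Om] (o : om = X) (h : k ≤ j + 1) (χ χ' : GQ → ℕ) (g : GQ) : ej h (ps (j + 1) χ χ' g) = 1 := by
  change e0 k _ = 1
  simp [e0, o]

theorem ej_aa {e : Crv} {b : Fld e} {Ψ : GQ → Rj (j + 1)} (h : k ≤ j + 1) {g : GQ} (hΨ : ej h (Ψ g) = 1) :
    (b.aa (j + 1) Ψ g).map (ej h) = (e.r g).map (toZModPow k) := by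
  ext i i'
  simp only [Fld.aa, map_apply, Matrix.smul_apply, smul_eq_mul, map_mul, hΨ, one_mul]
  change e0 k (C _) = _
  simp [e0]

/-- the kernel of the matrix of a stage without Kolyvagin primes -/
theorem card {e : Crv} {b : Fld e} {k j : ℕ} (h : k ≤ j + 1) {c : ℕ} {Ψ : GQ → Rj (j + 1)} {ε}
    {ι : Type} [Fintype ι] [DecidableEq ι] [IsEmpty ι] {kp : ι → b.Kp (j + 1) c Ψ} {r : ℕ}
    {d : Rw _ e.σ ι r} (u : Un b c Ψ ε kp d) (hΨ : ∀ g, ej h (Ψ g) = 1) (s) :
    Nat.card {y // (Matrix.of (Sum.elim (d.Rm b Ψ) fun o : Option (ι × Fin 2) =>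
      o.elim d.t s)).map (ej h) *ᵥ y = 0} = Nat.card (b.Zf k c) := by
  let _ := (ej h).toAlgebra
  have B := u.bij (ZMod (pp ^ k))
  have T : Tk b c _ kp = b.T c := by simp [Tk]
  have a : ∀ g (x : Fin 2 → ZMod (pp ^ k)),
      ac (b.aa _ Ψ g) x = ac ((e.r g).map (toZModPow k)) x :=
    fun g x => by rw [← ej_aa (b := b) h (hΨ g)]; rfl
  have a' : ∀ g (x : Fin 2 → ZMod (pp ^ k)),
      ac (b.aa _ Ψ g - 1) x = ac ((e.r g).map (toZModPow k) - 1) x := fun g x => by
    rw [← ej_aa (b := b) h (hΨ g), ← Matrix.map_one (ej h) (map_zero _) (map_one _),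
      ← Matrix.map_sub _ (map_sub _)]
    rfl
  have S : ∀ (x : GQ → Fin 2 → ZMod (pp ^ k)) m, b.Sel (Tk b c _ kp) (b.aa _ Ψ) ε x 0 m ↔
      (x, m) ∈ b.Zf k c := fun x m => by
    rw [T]
    exact ⟨fun q => ⟨⟨by simpa only [a] using q.coc, q.out, q.lc, q.unr⟩,
        by simpa using q.sv, by simpa only [a'] using q.sp⟩,
      fun q => ⟨⟨by simpa only [a] using q.coc, q.1.out, q.lc, q.unr⟩,
        by simpa using q.sv, by simpa only [a'] using q.sp⟩⟩
  have K : ∀ y : Ix r e.σ ι → ZMod (pp ^ k), (Matrix.of (Sum.elim (d.Rm b Ψ)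
      fun o : Option (ι × Fin 2) => o.elim d.t s)).map (ej h) *ᵥ y = 0 ↔
      ac (d.Rm b Ψ) y = 0 ∧ ∑ i, d.t i • y i = 0 := fun y =>
    ⟨fun q => ⟨funext fun i => congrFun q (.inl i), congrFun q (.inr none)⟩, fun q => funext fun
      | .inl i => congrFun q.1 i
      | .inr none => q.2
      | .inr (some x) => isEmptyElim x.1⟩
  refine Nat.card_congr (Equiv.ofBijective (fun y => ⟨(fun g => ac (d.u g) y.1,
    fun p => ac (d.m p) y.1), (S _ _).1 (((K _).1 y.2).2 ▸ B.mapsTo ((K _).1 y.2).1)⟩)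
    ⟨fun y z q => Subtype.ext (B.injOn ((K _).1 y.2).1 ((K _).1 z.2).1 ?_), fun x => ?_⟩)
  · obtain ⟨q1, q2⟩ := Prod.mk.inj (Subtype.mk.inj q)
    simp only [q1, q2, ((K _).1 y.2).2, ((K _).1 z.2).2]
  · obtain ⟨y, q1, q2⟩ := B.surjOn (a := (x.1.1, 0, x.1.2)) ((S _ _).2 x.2)
    simp only [Prod.mk.injEq] at q2
    exact ⟨⟨y, (K _).2 ⟨q1, q2.2.1⟩⟩, Subtype.ext (Prod.ext q2.1 q2.2.2)⟩

theorem two_dvd {i k j : ℕ} (h : k ≤ j + 1) (hi : i ≤ k) {t : Rj (j + 1)} {x : ℤ_[pp]}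
    (ht : t ∈ Ideal.span {(pp : Rj (j + 1)) ^ i, mj (j + 1) X}) (e : ej h t = toZModPow k x) :
    (pp : ℤ_[pp]) ^ i ∣ x := by
  obtain ⟨a, a', rfl⟩ := Ideal.mem_span_pair.1 ht
  have z : ej h (mj (j + 1) X) = 0 := by
    change e0 k _ = 0
    simp [e0]
  obtain ⟨y, hy⟩ := ZMod.ringHom_surjective (toZModPow (p := pp) k) (ej h a)
  rw [map_add, map_mul, map_mul, z, mul_zero, add_zero, map_pow, map_natCast, ← hy,
    ← map_natCast (toZModPow (p := pp) k) pp, ← map_pow, ← map_mul, ← sub_eq_zero, ← map_sub,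
    ← RingHom.mem_ker, PadicInt.ker_toZModPow, Ideal.mem_span_singleton] at e
  have := dvd_sub (dvd_mul_left ((pp : ℤ_[pp]) ^ i) y) ((pow_dvd_pow _ hi).trans e)
  rwa [sub_sub_cancel] at this

/-- **row CT0** -/
theorem ct0 [Om] : CT0 := by
  intro e b s w n L o ho N
  have A : L.pk.Mx (s.γ n) = um fun j => Matrix.of (Sum.elim ((L.d j).Rm b (s.Ψ j))
      fun o : Option (L.ι × Fin 2) => o.elim (L.d j).t (L.s' j)) := by
    ext1 (( i | x) | _ | x) i'
    · rfl
    · exact congrFun₂ (Sy.succ.um_mul (fun j => Nl b (s.Ψ j) x.1) fun j => (L.d j).l x.1).symm x.2 i'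
    · rfl
    · rfl
  have T : L.pk.t ⬝ᵥ L.pk.κ ∅ = ur fun j => s.t j ∅ := by
    refine Eq.trans ?_ (Sy.succ.ur_ae (x := fun j => (L.d j).t ⬝ᵥ L.κ j ∅) (L.un.mono ?_))
    · simp only [Sq.Lm.pk, dotProduct, ← map_mul, ← map_sum]
      exact congrArg _ (funext fun j => by simp only [Finset.sum_apply, Pi.mul_apply]; rfl)
    · rintro j ⟨k, -, -, -, -, q⟩
      simpa using ((q ∅).2 _ rfl).2.1
  obtain ⟨j, ⟨⟨⟨⟨⟨⟨⟨hj, tw⟩, pe⟩, chr⟩, kp, -, un, -⟩, es⟩, a1⟩, a2⟩⟩ :=
    ((((((((U_ge (2 * N)).and s.tw).and s.pe).and s.chr).and L.un).and s.es).and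
      (eventually_all.2 fun a => eventually_all.2 fun i => ej_ur (fun j => Matrix.of (Sum.elim
        ((L.d j).Rm b (s.Ψ j)) fun o : Option (L.ι × Fin 2) => o.elim (L.d j).t (L.s' j)) a i)
        (2 * N))).and (ej_ur (fun j => s.t j ∅) (2 * N))).exists
  have hk : 2 * N ≤ j + 1 := by omega
  obtain ⟨v, -, xq⟩ := pe.xq
  have pf : (s.C j).primeFactors = (s.c j).primeFactors ∪ {s.q j} := by
    rw [Nat.primeFactors_mul tw.sq.ne_zero xq.pr.ne_zero, xq.pr.primeFactors]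
  refine ⟨s.C j, ⟨one_lt_mul_of_lt_of_le tw.one xq.pr.one_le, chr.sq, ?_, fun q hq => ?_⟩,
    fun a ha hD => ?_, fun i hi hF => ?_⟩
  · rw [pf]
    exact (Finset.card_union_le _ _).trans (Nat.succ_le_succ tw.crd)
  · rw [pf, Finset.mem_union, Finset.mem_singleton] at hq
    have := hq.elim (tw.gp q) fun t => t ▸ pe.gp
    exact ⟨this.out, this.cop, this.typ.imp fun _ a => ⟨a.1, (pow_dvd_pow _ (by omega)).trans a.2⟩,
      fun z => this.gq ((pow_dvd_pow _ (Nat.le_succ _)).trans z)⟩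
  · have := ker _ ((L.pk.Mx (s.γ n)).map constantCoeff) a (2 * N) (by
      rwa [RingHom.map_det] at hD) ha
    rw [show ((L.pk.Mx (s.γ n)).map constantCoeff).map (toZModPow (2 * N)) =
      (Matrix.of (Sum.elim ((L.d j).Rm b (s.Ψ j)) fun o : Option (L.ι × Fin 2) =>
        o.elim (L.d j).t (L.s' j))).map (ej hk) from Matrix.ext fun a i => by
          rw [A]; exact (a1 a i hk).symm] at this
    exact this.trans_eq (card hk un (ej_ps o hk _ _) _)
  · refine two_dvd hk (by omega) (es.vl (fun g _ => ?_) i (by omega) hF) (T ▸ a2 hk)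
    rw [Ideal.mem_span_singleton]
    change _ ∣ mj _ _ - 1
    rw [← map_one (mj _), ← map_sub]
    exact map_dvd _ (X_dvd_iff.2 (by simp [o]))

end Vale.Agent.P014Y.F.Fx
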